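import Vale.Agent.P352X.Spec
import Vale.Agent.P352X.Api3a
import Vale.Agent.P352X.Api1

/-!
# P352X, toolbox for `ell` and `Tht`: coordinates on the cone, norms, representing functions
-/

set_option linter.all false

open MeasureTheory Filter Topology Set
open scoped SchwartzMap ComplexConjugate ENNReal ContDiff

namespace Vale.Agent.P352X.Th

open Vale.Agent.P352 Vale.Agent.P352.GF Vale.Agent.P352.BW Vale.Agent.P352.H246
open Vale.Agent.P352.H496 Vale.Agent.P352.H755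
open UniformSpace (Completion)
open Complex (I)

noncomputable section

/-- the coordinate `μ / 2 p_a` -/
def tc (p : V) : ℝ := mu p / (2 * be p)
/-- the shift `q^2 / 2 p_a` -/
def sh (k : P3) : ℝ := d2 k.2 k.2 / (2 * k.1)
abbrev mF : Measure V := volume.restrict Fc
abbrev mP : Measure P3 := volume.restrict {k : P3 | 0 < k.1}
abbrev mI : Measure ℝ := volume.restrict (Ioi 0)

@[fun_prop] lemma meas_tc : Measurable tc := by unfold tc; fun_prop
@[fun_prop] lemma meas_sh : Measurable sh := by unfold sh; fun_prop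

lemma mp_mat (M : Matrix Ix Ix ℝ) (h : |M.det| = 1) : MeasurePreserving
    (fun p : V => (((M.mulVec p 1, ![M.mulVec p 2, M.mulVec p 3]) : P3), M.mulVec p 0))
    volume (volume : Measure (P3 × ℝ)) := by
  have h0 : M.det ≠ 0 := fun e => by simp [e] at h
  have h1 : MeasurePreserving (Matrix.toLin' M) (volume : Measure V) volume :=
    ⟨(LinearMap.continuous_of_finiteDimensional _).measurable, by
      rw [Real.map_matrix_volume_pi_eq_smul_volume_pi h0, abs_inv, h]; simp⟩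
  have h2 := volume_preserving_piFinSuccAbove (fun _ : Fin 4 => ℝ) 0
  have h3 := (MeasurePreserving.id (volume : Measure ℝ)).prod
    (volume_preserving_piFinSuccAbove (fun _ : Fin 3 => ℝ) 0)
  have h4 := (Measure.measurePreserving_swap.comp (h3.comp h2)).comp h1
  refine h4.congr (by fun_prop) (.of_forall fun p => Prod.ext (Prod.ext rfl ?_) rfl)
  funext i
  fin_cases i <;> rfl

theorem mp_pm : MeasurePreserving (fun p : V => (pm p, al p)) volume (volume : Measure (P3 × ℝ)) := by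
  have h := mp_mat !![1 / 2, 1 / 2, 0, 0; 1, -1, 0, 0; 0, 0, 1, 0; 0, 0, 0, 1] (by
    simp [Matrix.det_succ_row_zero, Fin.sum_univ_succ, Fin.succAbove]; norm_num)
  refine h.congr (by fun_prop) (.of_forall fun p => ?_)
  show _ = ((be p, ![p 2, p 3]), al p)
  simp [Matrix.mulVec, dotProduct, Fin.sum_univ_succ, al_eq, be_eq]
  constructor <;> ring

theorem mp_pl : MeasurePreserving (fun p : V => (pl p, be p)) volume (volume : Measure (P3 × ℝ)) := by
  have h := mp_mat !![1, -1, 0, 0; 1 / 2, 1 / 2, 0, 0; 0, 0, 1, 0; 0, 0, 0, 1] (by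
    simp [Matrix.det_succ_row_zero, Fin.sum_univ_succ, Fin.succAbove]; norm_num)
  refine h.congr (by fun_prop) (.of_forall fun p => ?_)
  show _ = ((al p, ![p 2, p 3]), be p)
  simp [Matrix.mulVec, dotProduct, Fin.sum_univ_succ, al_eq, be_eq]
  constructor <;> ring

lemma tc_eq {p : V} (h : be p ≠ 0) : tc p = al p - sh (pm p) := by
  simp only [tc, sh, mu_eq, pm_1, pm_2]
  field_simp

lemma tc_pos {p : V} (h : p ∈ Fc) : 0 < tc p :=
  div_pos ((mem_Fc p).1 h).2 (mul_pos two_pos ((mem_Fc p).1 h).1)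

lemma mu_tc {p : V} (h : p ∈ Fc) : mu p = 2 * be p * tc p := by
  have := ((mem_Fc p).1 h).1
  rw [tc]
  field_simp

lemma sh_nonneg {k : P3} (h : 0 < k.1) : 0 ≤ sh k := div_nonneg (d2_nonneg _) (by positivity)

/-- **Coordinates on the cone.** -/
theorem crd : MeasurePreserving (fun p : V => (pm p, tc p)) mF (mP.prod mI) := by
  have h1 : MeasurePreserving (fun y : P3 × ℝ => (id y.1, y.2 - sh y.1))
      ((volume : Measure P3).prod volume) (volume.prod volume) :=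
    (MeasurePreserving.id _).skew_product (g := fun k t => t - sh k) (by fun_prop)
      (.of_forall fun k => map_sub_right_eq_self _ _)
  have hs : MeasurableSet ({k : P3 | 0 < k.1} ×ˢ Ioi (0 : ℝ)) :=
    (measurableSet_lt measurable_const measurable_fst).prod measurableSet_Ioi
  have h2 := (h1.comp mp_pm).restrict_preimage hs
  have e : ((fun y : P3 × ℝ => (id y.1, y.2 - sh y.1)) ∘ fun p : V => (pm p, al p)) ⁻¹'
      ({k : P3 | 0 < k.1} ×ˢ Ioi (0 : ℝ)) = Fc := by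
    ext p
    simp only [mem_preimage, Function.comp, id, mem_prod, mem_setOf_eq, pm_1, mem_Ioi, mem_Fc]
    refine and_congr_right fun hp => ?_
    rw [← tc_eq hp.ne', tc]
    exact div_pos_iff_of_pos_right (by positivity)
  rw [e, ← Measure.prod_restrict] at h2
  refine h2.congr (by fun_prop) ?_
  filter_upwards [ae_restrict_mem meas_Fc] with p hp
  exact Prod.ext rfl (tc_eq ((mem_Fc p).1 hp).1.ne').symm

lemma int_crd {E : Type*} [NormedAddCommGroup E] [NormedSpace ℝ E] {F : P3 × ℝ → E}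
    (hF : AEStronglyMeasurable F (mP.prod mI)) :
    ∫ p, F (pm p, tc p) ∂mF = ∫ y, F y ∂(mP.prod mI) := by
  rw [← crd.map_eq] at hF ⊢
  exact (integral_map crd.measurable.aemeasurable hF).symm

lemma sq_int {X : Type*} [MeasurableSpace X] {μ : Measure X} {f : X → ℂ} (h : MemLp f 2 μ) :
    Integrable (fun x => ‖f x‖ ^ 2) μ := (memLp_two_iff_integrable_sq_norm h.1).1 h

lemma mem_prod {g : P3 → ℂ} {G : ℝ → ℂ} (hg : MemLp g 2 mP) (hG : MemLp G 2 mI) :
    MemLp (fun p => g (pm p) * G (tc p)) 2 mF := by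
  have h : MemLp (fun y : P3 × ℝ => g y.1 * G y.2) 2 (mP.prod mI) := by
    refine (memLp_two_iff_integrable_sq_norm (hg.1.comp_fst.mul hG.1.comp_snd)).2 ?_
    simpa only [Pi.mul_apply, norm_mul, mul_pow] using (sq_int hg).mul_prod (sq_int hG)
  exact h.comp_measurePreserving crd

lemma int_prod {g : P3 → ℂ} {G : ℝ → ℂ} (hg : AEStronglyMeasurable g mP)
    (hG : AEStronglyMeasurable G mI) :
    ∫ p, g (pm p) * G (tc p) ∂mF = (∫ k, g k ∂mP) * ∫ t, G t ∂mI := by
  rw [← integral_prod_mul]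
  exact int_crd (F := fun y => g y.1 * G y.2) (hg.comp_fst.mul hG.comp_snd)

lemma int_prod_sq {g : P3 → ℂ} {G : ℝ → ℂ} (hg : AEStronglyMeasurable g mP)
    (hG : AEStronglyMeasurable G mI) :
    ∫ p, ‖g (pm p) * G (tc p)‖ ^ 2 ∂mF = (∫ k, ‖g k‖ ^ 2 ∂mP) * ∫ t, ‖G t‖ ^ 2 ∂mI := by
  rw [← integral_prod_mul]
  simp only [norm_mul, mul_pow]
  exact int_crd (F := fun y => ‖g y.1‖ ^ 2 * ‖G y.2‖ ^ 2)
    ((hg.norm.pow 2).comp_fst.mul (hG.norm.pow 2).comp_snd)

lemma meas_pos : MeasurableSet {k : P3 | 0 < k.1} :=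
  measurableSet_lt measurable_const measurable_fst

lemma int_m3 {E : Type*} [NormedAddCommGroup E] [NormedSpace ℝ E] (f : P3 → E) :
    ∫ k, f k ∂m3 = ∫ k, k.1 ^ 2 • f k ∂mP := by
  rw [m3, integral_withDensity_eq_integral_toReal_smul (by fun_prop)
    (.of_forall fun _ => ENNReal.ofReal_lt_top)]
  simp only [ENNReal.toReal_ofReal (sq_nonneg _)]

lemma aesm_m3 {γ : P3 → ℂ} : AEStronglyMeasurable γ m3 ↔ AEStronglyMeasurable γ mP := by
  refine ⟨fun h => h.mono_ac ?_, fun h => h.mono_ac (withDensity_absolutelyContinuous _ _)⟩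
  refine withDensity_absolutelyContinuous' (by fun_prop) ?_
  filter_upwards [ae_restrict_mem meas_pos] with k hk
  exact (ENNReal.ofReal_pos.2 (pow_pos hk 2)).ne'

lemma mem_m3 {γ : P3 → ℂ} : MemLp γ 2 m3 ↔
    AEStronglyMeasurable γ mP ∧ MemLp (fun k : P3 => (k.1 : ℂ) * γ k) 2 mP := by
  rw [← aesm_m3]
  refine ⟨fun h => ⟨h.1, ?_⟩, fun h => ?_⟩
  · refine (memLp_two_iff_integrable_sq_norm ((by fun_prop : AEStronglyMeasurable
      (fun k : P3 => (k.1 : ℂ)) mP).mul (aesm_m3.1 h.1))).2 ?_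
    have := sq_int h
    rw [m3, integrable_withDensity_iff_integrable_smul' (by fun_prop)
      (.of_forall fun _ => ENNReal.ofReal_lt_top)] at this
    simpa [ENNReal.toReal_ofReal (sq_nonneg _), mul_pow] using this
  · rw [memLp_two_iff_integrable_sq_norm h.1, m3, integrable_withDensity_iff_integrable_smul'
      (by fun_prop) (.of_forall fun _ => ENNReal.ofReal_lt_top)]
    simpa [ENNReal.toReal_ofReal (sq_nonneg _), mul_pow] using sq_int h.2

section ell

variable {D : Type*} [NormedAddCommGroup D] [InnerProductSpace ℂ D] {c : Ctx D}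
  {ell : (V → ℂ) → Completion D} {c0 : ℝ} (h : Ell c ell c0) {ψ ψ' : V → ℂ}
include h

lemma ell_sq (hψ : MemLp ψ 2 mF) : ‖ell ψ‖ ^ 2 = c0 * ∫ p, ‖ψ p‖ ^ 2 ∂mF := by
  have e := h.inn ψ ψ hψ hψ
  simp only [inner_self_eq_norm_sq_to_K, Complex.conj_mul'] at e
  rw [← Complex.ofReal_inj]
  push_cast
  rw [← integral_complex_ofReal]
  push_cast
  exact e

lemma ell_sub (hψ : MemLp ψ 2 mF) (hψ' : MemLp ψ' 2 mF) :
    ell (fun p => ψ p - ψ' p) = ell ψ - ell ψ' := by
  simpa only [neg_one_mul, neg_one_smul, ← sub_eq_add_neg] using h.lin ψ ψ' (-1) hψ hψ'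

lemma ell_add (hψ : MemLp ψ 2 mF) (hψ' : MemLp ψ' 2 mF) :
    ell (fun p => ψ p + ψ' p) = ell ψ + ell ψ' := by
  simpa only [one_mul, one_smul] using h.lin ψ ψ' 1 hψ hψ'

lemma ell_zero : ell (fun _ => 0) = 0 := by
  simpa using ell_sub h (ψ := fun _ => 0) (ψ' := fun _ => 0) MemLp.zero MemLp.zero

lemma ell_smul (a : ℂ) (hψ : MemLp ψ 2 mF) : ell (fun p => a * ψ p) = a • ell ψ := by
  simpa only [zero_add, ell_zero h] using h.lin (fun _ => 0) ψ a MemLp.zero hψ

lemma ell_congr (hψ : MemLp ψ 2 mF) (e : ψ =ᵐ[mF] ψ') : ell ψ = ell ψ' := by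
  have hψ' := hψ.ae_eq e
  rw [← sub_eq_zero, ← ell_sub h hψ hψ', ← norm_eq_zero, ← sq_eq_zero_iff,
    ell_sq h (ψ := fun p => ψ p - ψ' p) (hψ.sub hψ'), integral_congr_ae (g := fun _ => 0),
    integral_zero, mul_zero]
  filter_upwards [e] with p hp
  simp [hp]

lemma ell_congr' (hψ : MemLp ψ 2 mF) (e : ∀ p ∈ Fc, ψ p = ψ' p) : ell ψ = ell ψ' :=
  ell_congr h hψ (by filter_upwards [ae_restrict_mem meas_Fc] using e)

omit h in
lemma mem_dom {g : P3 → ℂ} {G : ℝ → ℂ} (hg : MemLp g 2 mP) (hG : MemLp G 2 mI)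
    (hψ : AEStronglyMeasurable ψ mF) (e : ∀ p ∈ Fc, ‖ψ p‖ ≤ ‖g (pm p) * G (tc p)‖) :
    MemLp ψ 2 mF :=
  (mem_prod hg hG).of_le hψ (by filter_upwards [ae_restrict_mem meas_Fc] using e)

lemma ell_prod {g : P3 → ℂ} {G : ℝ → ℂ} (hg : MemLp g 2 mP) (hG : MemLp G 2 mI) :
    ‖ell fun p => g (pm p) * G (tc p)‖ ^ 2 = c0 * ((∫ k, ‖g k‖ ^ 2 ∂mP) * ∫ t, ‖G t‖ ^ 2 ∂mI) := by
  rw [ell_sq h (mem_prod hg hG), int_prod_sq hg.1 hG.1]

lemma ell_dom {g : P3 → ℂ} {G : ℝ → ℂ} (hg : MemLp g 2 mP) (hG : MemLp G 2 mI)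
    (hψ : AEStronglyMeasurable ψ mF) (e : ∀ p ∈ Fc, ‖ψ p‖ ≤ ‖g (pm p) * G (tc p)‖) :
    ‖ell ψ‖ ^ 2 ≤ c0 * ((∫ k, ‖g k‖ ^ 2 ∂mP) * ∫ t, ‖G t‖ ^ 2 ∂mI) := by
  rw [ell_sq h (mem_dom hg hG hψ e), ← int_prod_sq hg.1 hG.1]
  refine mul_le_mul_of_nonneg_left (integral_mono_ae (sq_int (mem_dom hg hG hψ e))
    (sq_int (mem_prod hg hG)) ?_) h.nonneg
  filter_upwards [ae_restrict_mem meas_Fc] with p hp
  exact pow_le_pow_left₀ (norm_nonneg _) (e p hp) 2

/-- `ell` as a bounded operator on `L2` -/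
def ellL : Lp ℂ 2 mF →L[ℂ] Completion D := LinearMap.mkContinuous
  { toFun := fun f => ell f
    map_add' := fun f g => by
      rw [← ell_add h (Lp.memLp f) (Lp.memLp g)]
      exact ell_congr h (Lp.memLp _) (Lp.coeFn_add f g)
    map_smul' := fun a f => by
      rw [RingHom.id_apply, ← ell_smul h a (Lp.memLp f)]
      exact ell_congr h (Lp.memLp _) (Lp.coeFn_smul a f) } (Real.sqrt c0) fun f => by
    refine (pow_le_pow_iff_left₀ (norm_nonneg _) (by positivity) two_ne_zero).1 (le_of_eq ?_)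
    show ‖ell f‖ ^ 2 = _
    rw [ell_sq h (Lp.memLp f), mul_pow, Real.sq_sqrt h.nonneg, ← inner_self_eq_norm_sq (𝕜 := ℂ) f,
      L2.inner_def, ← integral_re (L2.integrable_inner f f)]
    simp only [inner_self_eq_norm_sq]

lemma ellL_toLp (hψ : MemLp ψ 2 mF) : ellL h (hψ.toLp ψ) = ell ψ :=
  ell_congr h (Lp.memLp _) hψ.coeFn_toLp

/-- **Representing functions.** -/
theorem riesz (v : Completion D) : ∃ b : V → ℂ, MemLp b 2 mF ∧
    ∀ ψ, MemLp ψ 2 mF → inner ℂ (ell ψ) v = ∫ p, conj (ψ p) * b p ∂mF := by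
  refine ⟨ContinuousLinearMap.adjoint (ellL h) v, Lp.memLp _, fun ψ hψ => ?_⟩
  rw [← ellL_toLp h hψ, ← ContinuousLinearMap.adjoint_inner_right, L2.inner_def]
  refine integral_congr_ae ?_
  filter_upwards [hψ.coeFn_toLp] with p hp
  rw [hp, RCLike.inner_apply']

end ell

end

end Vale.Agent.P352X.Th
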