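import Vale.Agent.P352X.Api1

/-!
# P352X, row D1: elementary estimates, averages over scales
-/

set_option linter.all false

open MeasureTheory Filter Topology Set

namespace Vale.Agent.P352X.D1

noncomputable section

variable {f β : ℝ → ℂ} {a b x y A B K : ℝ}

lemma sqrt_inv_mul {s : ℝ} (hs : 0 < s) : s⁻¹ * √s = s ^ (-1 / 2 : ℝ) := by
  rw [Real.sqrt_eq_rpow, ← Real.rpow_neg_one, ← Real.rpow_add hs]
  norm_num

lemma inv_mul_sqrt_inv {s : ℝ} (hs : 0 < s) : s⁻¹ * (√s)⁻¹ = s ^ (-3 / 2 : ℝ) := by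
  rw [Real.sqrt_eq_rpow, ← Real.rpow_neg hs.le, ← Real.rpow_neg_one, ← Real.rpow_add hs]
  norm_num

lemma int_lo (hx : 0 ≤ x) : ∫ s in (0 : ℝ)..x, s ^ (-1 / 2 : ℝ) = 2 * √x := by
  rw [integral_rpow (.inl (by norm_num)), Real.sqrt_eq_rpow]
  norm_num
  ring

lemma int_hi (hy : 0 < y) : ∫ s in Ioi y, s ^ (-3 / 2 : ℝ) = 2 * (√y)⁻¹ := by
  rw [integral_Ioi_rpow_of_lt (by norm_num) hy, Real.sqrt_eq_rpow, ← Real.rpow_neg hy.le]
  norm_num
  ring

lemma lo_le (hx : 0 ≤ x) {S : Set ℝ} (hS : S ⊆ Ioc 0 x) (mS : MeasurableSet S) (hA : 0 ≤ A) :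
    IntegrableOn (fun s => A * s ^ (-1 / 2 : ℝ)) S ∧
      ∫ s in S, A * s ^ (-1 / 2 : ℝ) ≤ 2 * A * √x := by
  have i : IntegrableOn (fun s => A * s ^ (-1 / 2 : ℝ)) (Ioc 0 x) :=
    ((intervalIntegral.intervalIntegrable_rpow' (a := 0) (b := x) (by norm_num)).const_mul A).1
  refine ⟨i.mono_set hS, (setIntegral_mono_set i ?_ hS.eventuallyLE).trans_eq ?_⟩
  · filter_upwards [ae_restrict_mem measurableSet_Ioc] with s hs
    exact mul_nonneg hA (Real.rpow_nonneg hs.1.le _)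
  · rw [← intervalIntegral.integral_of_le hx, intervalIntegral.integral_const_mul, int_lo hx]
    ring

lemma hi_le (hy : 0 < y) {S : Set ℝ} (hS : S ⊆ Ioi y) (mS : MeasurableSet S) (hA : 0 ≤ A) :
    IntegrableOn (fun s => A * s ^ (-3 / 2 : ℝ)) S ∧
      ∫ s in S, A * s ^ (-3 / 2 : ℝ) ≤ 2 * A * (√y)⁻¹ := by
  have i : IntegrableOn (fun s => A * s ^ (-3 / 2 : ℝ)) (Ioi y) :=
    (integrableOn_Ioi_rpow_of_lt (by norm_num) hy).const_mul A
  refine ⟨i.mono_set hS, (setIntegral_mono_set i ?_ hS.eventuallyLE).trans_eq ?_⟩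
  · filter_upwards [ae_restrict_mem measurableSet_Ioi] with s hs
    exact mul_nonneg hA (Real.rpow_nonneg (hy.trans hs).le _)
  · rw [integral_const_mul, int_hi hy]
    ring

/-- a function with integral zero for the invariant measure -/
lemma tails (hi : IntegrableOn (fun s : ℝ => β s / s) (Ioi 0)) (h0 : ∫ s in Ioi (0 : ℝ), β s / s = 0)
    (hK : 0 ≤ K) (h1 : ∀ s, 0 < s → ‖β s‖ ≤ K * √s) (h2 : ∀ s, 0 < s → ‖β s‖ ≤ K * (√s)⁻¹)
    (hx : 0 < x) (hy : 0 < y) :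
    ‖∫ s in x..y, β s / s‖ ≤ 2 * K * (√x + (√y)⁻¹) := by
  have n : ∀ s : ℝ, 0 < s → ‖β s / s‖ = s⁻¹ * ‖β s‖ := fun s hs => by
    rw [norm_div, Complex.norm_real, Real.norm_of_nonneg hs.le, div_eq_inv_mul]
  have e1 := intervalIntegral.integral_Ioi_sub_Ioi' (hi.mono_set (Ioi_subset_Ioi hx.le))
    (hi.mono_set (Ioi_subset_Ioi hy.le))
  have e2 := intervalIntegral.integral_Ioi_sub_Ioi hi hx.le
  rw [h0, zero_sub, neg_eq_iff_eq_neg, intervalIntegral.integral_of_le hx.le] at e2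
  obtain ⟨i1, j1⟩ := lo_le hx.le subset_rfl measurableSet_Ioc hK
  obtain ⟨i2, j2⟩ := hi_le hy subset_rfl measurableSet_Ioi hK
  rw [← e1, e2, mul_add]
  refine (norm_sub_le _ _).trans (add_le_add ((norm_neg _).trans_le
    ((norm_integral_le_of_norm_le i1 ?_).trans j1)) ((norm_integral_le_of_norm_le i2 ?_).trans j2))
  · filter_upwards [ae_restrict_mem measurableSet_Ioc] with s hs
    rw [n s hs.1, ← sqrt_inv_mul hs.1, mul_left_comm]
    exact mul_le_mul_of_nonneg_left (h1 s hs.1) (inv_pos.2 hs.1).le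
  · filter_upwards [ae_restrict_mem measurableSet_Ioi] with s hs
    have s0 := hy.trans hs
    rw [n s s0, ← inv_mul_sqrt_inv s0, mul_left_comm]
    exact mul_le_mul_of_nonneg_left (h2 s s0) (inv_pos.2 s0).le

lemma mid (ha : 0 < a) (hab : a ≤ b) (hA : 0 ≤ A) (hB : 0 ≤ B)
    (h : ∀ s, 0 < s → ‖f s‖ ≤ A * (√s)⁻¹ + B * √s) :
    ‖∫ s in a..b, ((s⁻¹ : ℝ) : ℂ) • f s‖ ≤ 2 * A * (√a)⁻¹ + 2 * B * √b := by
  obtain ⟨i1, j1⟩ := lo_le (ha.le.trans hab) (Ioc_subset_Ioc_left ha.le) measurableSet_Ioc hB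
  obtain ⟨i2, j2⟩ := hi_le ha (Ioc_subset_Ioi_self (a := b)) measurableSet_Ioc hA
  rw [intervalIntegral.integral_of_le hab]
  refine (norm_integral_le_of_norm_le (i2.add i1) ?_).trans
    ((integral_add i2 i1).trans_le (add_le_add j2 j1))
  filter_upwards [ae_restrict_mem measurableSet_Ioc] with s hs
  have s0 := ha.trans hs.1
  rw [norm_smul, Complex.norm_real, Real.norm_of_nonneg (inv_pos.2 s0).le, Pi.add_apply,
    ← inv_mul_sqrt_inv s0, ← sqrt_inv_mul s0, mul_left_comm, mul_left_comm B, ← mul_add]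
  exact mul_le_mul_of_nonneg_left (h s s0) (inv_pos.2 s0).le

variable {H : Type*} [NormedAddCommGroup H] [InnerProductSpace ℂ H]

/-- almost orthogonal sums -/
lemma avg (n : ℕ) {v k : ℕ → H} {C ε : ℝ} (hε : 0 ≤ ε) (h1 : ∀ i, ‖inner ℂ (v i) (k i)‖ ≤ C)
    (h2 : ∀ i j, i ≠ j → ‖inner ℂ (v i) (k j)‖ ≤ ε) :
    ‖inner ℂ (((n + 1 : ℝ)⁻¹ : ℂ) • ∑ i ∈ Finset.range (n + 1), v i)
      (((n + 1 : ℝ)⁻¹ : ℂ) • ∑ i ∈ Finset.range (n + 1), k i)‖ ≤ C / (n + 1) + ε := by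
  have p : (0 : ℝ) < n + 1 := by positivity
  have e : ‖∑ i ∈ Finset.range (n + 1), ∑ j ∈ Finset.range (n + 1), inner ℂ (v i) (k j)‖ ≤
      (n + 1) * (C + (n + 1) * ε) := by
    refine (norm_sum_le _ _).trans ((Finset.sum_le_card_nsmul _ _ (C + (n + 1) * ε)
      fun i hi => ?_).trans_eq (by simp [mul_add]))
    refine (norm_sum_le_of_le _ (n := fun j => (if j = i then C else 0) + ε) fun j _ => ?_).trans_eq
      (by simp [Finset.sum_add_distrib, Finset.mem_range.1 hi])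
    split_ifs with e
    · exact e ▸ (h1 j).trans (le_add_of_nonneg_right hε)
    · simpa using h2 i j (Ne.symm e)
  rw [inner_smul_left, inner_smul_right, sum_inner]
  simp only [inner_sum, norm_mul, RCLike.norm_conj, norm_inv, Complex.norm_real,
    Real.norm_of_nonneg p.le]
  refine (mul_le_mul_of_nonneg_left (mul_le_mul_of_nonneg_left e (by positivity))
    (by positivity)).trans_eq ?_
  field_simp

end

end Vale.Agent.P352X.D1
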