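import Vale.Agent.P352X.Api3c
import Vale.Agent.P352X.Api2
import Vale.Agent.P352X.R.D1.ThA

/-!
# P352X, row D1: the vectors `ell (G(p, q) φ^(μ / 2 p))`
-/

set_option linter.all false

open MeasureTheory Filter Topology Set
open scoped SchwartzMap ComplexConjugate ContDiff RealInnerProductSpace

namespace Vale.Agent.P352X.D1

open Vale.Agent.P352 Vale.Agent.P352.GF Vale.Agent.P352.H755
open Vale.Agent.P352.BW (Fc)
open FT Th Ap
open UniformSpace (Completion)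
open Complex (I)

noncomputable section

/-- Euclidean coordinates on the line -/
def e1 : ℝ ≃L[ℝ] EuclideanSpace ℝ (Fin 1) :=
  (ContinuousLinearEquiv.funUnique (Fin 1) ℝ ℝ).symm.trans (EuclideanSpace.equiv (Fin 1) ℝ).symm

lemma mp_e1 : MeasurePreserving e1 volume volume :=
  (PiLp.volume_preserving_toLp (Fin 1)).comp (volume_preserving_funUnique (Fin 1) ℝ).symm

/-- the data for `ft1` -/
def d1 : Dat ℝ 1 where
  B := ContinuousLinearMap.mul ℝ ℝ
  symm := mul_comm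
  e := e1
  σ := e1
  he := mp_e1
  hσ := mp_e1
  hB p z := by simp [e1, EuclideanSpace.inner_eq_star_dotProduct, dotProduct]

/-- Euclidean coordinates on the null plane -/
def e3 : P3 ≃L[ℝ] EuclideanSpace ℝ (Fin 3) :=
  (Fin.consEquivL ℝ fun _ : Fin 3 => ℝ).trans (EuclideanSpace.equiv (Fin 3) ℝ).symm

lemma mp_e3 : MeasurePreserving e3 volume volume :=
  (PiLp.volume_preserving_toLp (Fin 3)).comp
    ((volume_preserving_piFinSuccAbove (fun _ : Fin 3 => ℝ) 0).symm.congr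
      (Fin.consEquivL ℝ fun _ : Fin 3 => ℝ).continuous.measurable (.of_forall fun y => by
        ext i; simp))

/-- the reflection of the transverse coordinates -/
def rf : P3 ≃L[ℝ] P3 := (ContinuousLinearEquiv.refl ℝ ℝ).prodCongr (ContinuousLinearEquiv.neg ℝ)

/-- the data for `ft3` -/
def d3 : Dat P3 3 where
  B := (innerSL ℝ).bilinearComp (rf.trans e3).toContinuousLinearMap e3.toContinuousLinearMap
  symm x y := by
    simp [e3, rf, EuclideanSpace.inner_eq_star_dotProduct, dotProduct, Fin.sum_univ_succ]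
    ring
  e := e3
  σ := rf.trans e3
  he := mp_e3
  hσ := mp_e3.comp ((MeasurePreserving.id _).prod (Measure.measurePreserving_neg _))
  hB p z := real_inner_comm (e3 z) ((rf.trans e3) p)

lemma d3_B (k y : P3) : d3.B k y = y.1 * k.1 - d2 y.2 k.2 := by
  simp [d3, e3, rf, EuclideanSpace.inner_eq_star_dotProduct, dotProduct, Fin.sum_univ_succ, d2]
  ring

local instance haar3 : (volume : Measure P3).IsAddHaarMeasure :=
  Measure.prod.instIsAddHaarMeasure _ _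

lemma ft1_eq (φ : ℝ → ℂ) : ft1 φ = gft d1.B φ := by
  funext k
  simp only [ft1, gft, d1, ContinuousLinearMap.mul_apply', mul_comm k]

lemma ft3_eq (g : P3 → ℂ) : ft3 g = gft d3.B g := by
  funext k
  simp only [ft3, gft, d3_B]

lemma sw_ft1 {φ : ℝ → ℂ} (h : Sw φ) : Sw (ft1 φ) := by
  obtain ⟨φ, rfl⟩ := h
  exact ⟨d1.F φ, by rw [ft1_eq, d1.coe_F]⟩

lemma sw_ft3 {g : P3 → ℂ} (h : Sw g) : Sw (ft3 g) := by
  obtain ⟨g, rfl⟩ := h
  exact ⟨d3.F g, by rw [ft3_eq, d3.coe_F]⟩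

lemma planch {φ : ℝ → ℂ} (h : Sw φ) : ∫ t, ‖ft1 φ t‖ ^ 2 = 2 * Real.pi * ∫ t, ‖φ t‖ ^ 2 := by
  obtain ⟨φ, rfl⟩ := h
  simpa only [ft1_eq, pow_one] using d1.plancherel_norm φ

lemma l2 {E : Type*} [NormedAddCommGroup E] [NormedSpace ℝ E] [MeasureSpace E] [BorelSpace E]
    [FiniteDimensional ℝ E] [(volume : Measure E).IsAddHaarMeasure] {f : E → ℂ} (h : Sw f) :
    MemLp f 2 := by
  obtain ⟨f, rfl⟩ := h
  exact f.memLp 2

/-- the derivative along the light ray -/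
def da (g : P3 → ℂ) (y : P3) : ℂ := fderiv ℝ g y (1, 0)

lemma ft3_da {g : P3 → ℂ} (h : Sw g) (k : P3) : ft3 (da g) k = -(I * k.1) * ft3 g k := by
  obtain ⟨g, rfl⟩ := h
  have := gft_deriv_sch (B := d3.B) g (1, 0) k
  rwa [d3_B, one_mul, d2_zero_l, sub_zero, ← ft3_eq, ← ft3_eq] at this

lemma ft_pf (g : P3 → ℂ) (φ : ℝ → ℂ) (p : V) : ft (pf g φ) p = ft3 g (pm p) * ft1 φ (al p) := by
  rw [ft3, ft1, ← integral_pl_be]
  refine integral_congr_ae (.of_forall fun z => ?_)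
  simp only [pf, mdot_null, pl_1, pl_2, pm_1, pm_2, d2_comm (tx z)]
  rw [mul_mul_mul_comm, ← Complex.exp_add]
  congr 2
  push_cast
  ring

variable {D : Type*} [NormedAddCommGroup D] [InnerProductSpace ℂ D] {c : Ctx D}
  {ell : (V → ℂ) → Completion D} {c0 : ℝ} (h : Ell c ell c0) {G : P3 → ℂ} (hG : MemLp G 2 mP)
include h hG

lemma el_le {F : ℝ → ℂ} (hF : MemLp F 2) :
    ‖ell fun p => G (pm p) * F (tc p)‖ ^ 2 ≤ c0 * (∫ k, ‖G k‖ ^ 2 ∂mP) * ∫ t, ‖F t‖ ^ 2 := by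
  rw [ell_prod h hG (hF.restrict _), mul_assoc]
  exact mul_le_mul_of_nonneg_left (mul_le_mul_of_nonneg_left (setIntegral_le_integral (sq_int hF)
    (.of_forall fun _ => sq_nonneg _)) (integral_nonneg fun _ => sq_nonneg _)) h.nonneg

/-- the vectors as a linear map -/
def EL0 : 𝓢(ℝ, ℂ) →ₗ[ℂ] Completion D where
  toFun F := ell fun p => G (pm p) * F (tc p)
  map_add' F F' := by
    rw [← ell_add h (mem_prod hG ((F.memLp 2).restrict _)) (mem_prod hG ((F'.memLp 2).restrict _))]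
    simp only [SchwartzMap.add_apply, mul_add]
  map_smul' a F := by
    rw [RingHom.id_apply, ← ell_smul h a (mem_prod hG ((F.memLp 2).restrict _))]
    simp only [SchwartzMap.smul_apply, smul_eq_mul, mul_left_comm a]

/-- the vectors as a continuous linear map -/
def EL : 𝓢(ℝ, ℂ) →L[ℂ] Completion D where
  toLinearMap := EL0 h hG
  cont := continuous_of_continuousAt_zero (EL0 h hG) (by
    rw [ContinuousAt, map_zero]
    have := ((SchwartzMap.toLpCLM ℂ ℂ 2 (volume : Measure ℝ)).continuous.norm.const_mul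
      √(c0 * ∫ k, ‖G k‖ ^ 2 ∂mP)).tendsto 0
    rw [map_zero, norm_zero, mul_zero] at this
    refine squeeze_zero_norm (fun F => abs_le_of_sq_le_sq' ?_ (by positivity) |>.2) this
    rw [mul_pow, Real.sq_sqrt (mul_nonneg h.nonneg (integral_nonneg fun _ => sq_nonneg _))]
    refine (el_le h hG (F.memLp 2)).trans_eq ?_
    rw [← inner_self_eq_norm_sq (𝕜 := ℂ), L2.inner_def, ← integral_re (L2.integrable_inner _ _)]
    congr 1
    refine integral_congr_ae ?_
    filter_upwards [F.coeFn_toLp 2 volume] with t ht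
    rw [inner_self_eq_norm_sq, SchwartzMap.toLpCLM_apply, ht])

/-- `φ ↦ ell (G(p, q) φ^(μ / 2 p))` -/
def La : 𝓢(ℝ, ℂ) →L[ℂ] Completion D := EL h hG ∘L d1.F.toContinuousLinearMap

lemma La_apply (φ : 𝓢(ℝ, ℂ)) : La h hG φ = ell fun p => G (pm p) * ft1 φ (tc p) := by
  rw [ft1_eq, ← d1.coe_F]
  rfl

lemma La_le (φ : 𝓢(ℝ, ℂ)) :
    ‖La h hG φ‖ ^ 2 ≤ c0 * (∫ k, ‖G k‖ ^ 2 ∂mP) * (2 * Real.pi) * ∫ t, ‖φ t‖ ^ 2 := by
  rw [La_apply, mul_assoc, ← planch (sw_coe φ)]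
  exact el_le h hG (l2 (sw_ft1 (sw_coe φ)))

lemma Tht_eq {γ : P3 → ℂ} (e : ∀ k, G k = -(I * k.1) * γ k) {φ : ℝ → ℝ} (hφ : Tst φ) :
    Tht ell γ φ = (6 : ℂ) • La h hG (SchwartzMap.derivCLM ℂ ℂ (sch (cx φ))) := by
  have k : ∀ t, ft1 (SchwartzMap.derivCLM ℂ ℂ (sch (cx φ))) t = -(I * t) * ft1 (cx φ) t := fun t => by
    have := gft_deriv_sch (B := d1.B) (sch (cx φ)) 1 t
    rw [← ft1_eq, ← ft1_eq, show d1.B t 1 = t from mul_one t] at this
    exact this.trans (by rw [coe_sch (f := cx φ) (tst_sw hφ)])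
  have m := mem_prod hG ((l2 (sw_ft1 (sw_coe (SchwartzMap.derivCLM ℂ ℂ (sch (cx φ)))))).restrict _)
  rw [La_apply, Tht, show (6 : ℂ) = -3 * -2 by norm_num, mul_smul, ← ell_smul h _ m]
  refine congrArg _ (ell_congr' h (m.const_mul _) fun p hp => ?_).symm
  rw [k, e, ← tc, mu_tc hp, pm_1]
  push_cast
  linear_combination (-2 * be p * tc p * γ (pm p) * ft1 (cx φ) (tc p)) * Complex.I_mul_I

omit h hG in
lemma shift {φ : ℝ → ℝ} (hφ : Tst φ) (σ : ℝ) : ∫ t, ‖ft1 (cx φ) t - ft1 (cx φ) (t + σ)‖ ^ 2 ∂Th.mI ≤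
    σ ^ 2 * (2 * Real.pi * ∫ t, (t * φ t) ^ 2) := by
  have d : Dc (cx φ) := dc_cx hφ
  have d' : Dc fun t : ℝ => Complex.exp (I * d1.B σ t) * cx φ t :=
    cs_mul_l (Complex.contDiff_exp.comp (contDiff_const.mul (smooth_cx (d1.B σ).contDiff))) d
  have s := dc_sw (cs_sub d d')
  have e : ∀ t, ft1 (cx φ) t - ft1 (cx φ) (t + σ) =
      ft1 (fun t : ℝ => cx φ t - Complex.exp (I * d1.B σ t) * cx φ t) t := fun t => by
    rw [ft1_eq, ft1_eq, gft_sub (cs_int d) (cs_int d'), gft_mdl]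
  simp only [e]
  refine (setIntegral_le_integral (sq_int (l2 (sw_ft1 s))) (.of_forall fun _ => sq_nonneg _)).trans
    ((planch s).trans_le ?_)
  rw [mul_left_comm (σ ^ 2), ← integral_const_mul (σ ^ 2)]
  have i : Integrable fun t => (t * φ t) ^ 2 := by
    simpa only [sq, id] using cs_int (μ := volume) (cs_mul_l (contDiff_id.mul hφ.1)
      (cs_mul_l contDiff_id hφ))
  refine mul_le_mul_of_nonneg_left (integral_mono_of_nonneg (.of_forall fun _ => sq_nonneg _)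
    (i.const_mul _) (.of_forall fun t => ?_)) Real.two_pi_pos.le
  have := Real.norm_exp_I_mul_ofReal_sub_one_le (x := σ * t)
  beta_reduce
  rw [← one_sub_mul, norm_mul, norm_sub_rev, ← mul_pow, ← sq_abs (σ * _), ← mul_assoc, abs_mul]
  exact pow_le_pow_left₀ (by positivity) (mul_le_mul this (Complex.norm_real _).le (norm_nonneg _)
    (abs_nonneg _)) 2

omit hG in
/-- the difference of the two Fourier variables -/
lemma near {g : P3 → ℂ} (hg : Sw g) (hG : MemLp (ft3 (da g)) 2 mP) : ∃ C : ℝ, ∀ φ : ℝ → ℝ, Tst φ →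
    IsTest (pf (da g) (cx φ)) →
    ‖La h hG (sch (cx φ)) - c.l (pf (da g) (cx φ))‖ ^ 2 ≤ C * ∫ t, (t * φ t) ^ 2 := by
  have q := fun i : Fin 2 => ((ContinuousLinearMap.proj i : R2 →L[ℝ] ℝ) ∘L
    ContinuousLinearMap.snd ℝ ℝ R2).hasTemperateGrowth
  have h1 : MemLp (fun k : P3 => ((d2 k.2 k.2 : ℝ) : ℂ) * ft3 g k) 2 mP :=
    (l2 (sw_rmul (u := fun k : P3 => d2 k.2 k.2) (((q 0).mul (q 0)).add ((q 1).mul (q 1)))
      (sw_ft3 hg))).restrict _
  refine ⟨c0 * ((∫ k, ‖((d2 k.2 k.2 : ℝ) : ℂ) * ft3 g k‖ ^ 2 ∂mP) * (2 * Real.pi)),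
    fun φ hφ ht => ?_⟩
  have s1 : Sw (ft1 (cx φ)) := sw_ft1 (tst_sw hφ)
  have s2 : Sw (ft3 (da g)) := sw_ft3 (sw_fderiv _ hg)
  have m1 := mem_prod hG ((l2 s1).restrict _)
  have m2 : MemLp (fun p => ft3 (da g) (pm p) * ft1 (cx φ) (al p)) 2 mF :=
    (sc_pt'.mul_memLp (by simp) (l2 s2) (l2 s1)).restrict _
  have c1 := (sw_cont s1).measurable
  have c2 := (sw_cont s2).measurable
  have p0 : 0 ≤ ∫ t, (t * φ t) ^ 2 := integral_nonneg fun _ => sq_nonneg _
  rw [La_apply, coe_sch (f := cx φ) (tst_sw hφ), ← h.pot _ ht, funext (ft_pf _ _),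
    ← ell_sub h m1 m2, ell_sq h (ψ := fun p => _ - _) (m1.sub m2), mul_assoc, mul_assoc]
  refine mul_le_mul_of_nonneg_left ?_ h.nonneg
  set F : P3 × ℝ → ℝ := fun y =>
    ‖ft3 (da g) y.1‖ ^ 2 * ‖ft1 (cx φ) y.2 - ft1 (cx φ) (y.2 + sh y.1)‖ ^ 2
  rw [integral_congr_ae (g := fun p => F (pm p, tc p)) (by
    filter_upwards [ae_restrict_mem meas_Fc] with p hp
    simp only [F, tc_eq ((mem_Fc p).1 hp).1.ne', sub_add_cancel, ← mul_sub, norm_mul, mul_pow]),
    int_crd (Measurable.aestronglyMeasurable (by fun_prop))]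
  by_cases i : Integrable F (mP.prod Th.mI)
  swap
  · rw [integral_undef i]
    exact mul_nonneg (integral_nonneg fun _ => sq_nonneg _) (by positivity)
  rw [integral_prod _ i, ← integral_mul_const]
  refine integral_mono_of_nonneg (.of_forall fun _ => integral_nonneg fun _ => by positivity)
    ((sq_int h1).mul_const _) ?_
  filter_upwards [ae_restrict_mem meas_pos] with k hk
  simp only [F, integral_const_mul]
  refine (mul_le_mul_of_nonneg_left (shift hφ _) (sq_nonneg _)).trans ?_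
  rw [← mul_assoc]
  refine mul_le_mul_of_nonneg_right ?_ (by positivity)
  have k0 : k.1 ≠ 0 := hk.ne'
  simp only [ft3_da hg, norm_mul, norm_neg, Complex.norm_I, Complex.norm_real, mul_pow, sh,
    Real.norm_eq_abs, sq_abs, one_pow, one_mul, div_pow]
  field_simp
  nlinarith [sq_nonneg (‖ft3 g k‖ * d2 k.2 k.2)]

end

end Vale.Agent.P352X.D1
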