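import Vale.Agent.P352X.R.IB.Pl

/-!
# P352X, row D1: the profiles
-/

set_option linter.all false

open MeasureTheory Filter Topology Set
open scoped SchwartzMap ContDiff

namespace Vale.Agent.P352X.D1

open Vale.Agent.P352.H755 (Tst)
open Ap Ib
open Api4 (Fam)

noncomputable section

/-- a smooth step -/
def st : ℝ → ℝ := (ex_step (show (-2 : ℝ) < -1 by norm_num)).choose

lemma st_sm : ContDiff ℝ ∞ st := (ex_step (show (-2 : ℝ) < -1 by norm_num)).choose_spec.1
lemma st_0 {t : ℝ} (h : t ≤ -2) : st t = 0 :=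
  (ex_step (show (-2 : ℝ) < -1 by norm_num)).choose_spec.2.1 t h
lemma st_1 {t : ℝ} (h : -1 ≤ t) : st t = 1 :=
  (ex_step (show (-2 : ℝ) < -1 by norm_num)).choose_spec.2.2.1 t h

/-- its derivative -/
def et : ℝ → ℝ := deriv st

lemma st_der (t : ℝ) : HasDerivAt st (et t) t := (st_sm.differentiable (by simp) t).hasDerivAt

lemma et_0 {t : ℝ} (h : t ∉ Icc (-2 : ℝ) (-1)) : et t = 0 := by
  rcases not_and_or.1 h with h | h
  · have : st =ᶠ[𝓝 t] fun _ => 0 := (gt_mem_nhds (not_le.1 h)).mono fun _ k => st_0 k.le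
    rw [et, this.deriv_eq, deriv_const]
  · have : st =ᶠ[𝓝 t] fun _ => 1 := (lt_mem_nhds (not_le.1 h)).mono fun _ k => st_1 k.le
    rw [et, this.deriv_eq, deriv_const]

lemma et_tst : Tst et := cs_of (st_sm.deriv' (n := ∞)) isCompact_Icc fun _ => et_0

lemma et_int : ∫ t, et t = 1 := by
  rw [← setIntegral_eq_integral_of_forall_compl_eq_zero (s := Icc (-2) (-1)) fun _ => et_0,
    integral_Icc_eq_integral_Ioc, ← intervalIntegral.integral_of_le (by norm_num),
    intervalIntegral.integral_eq_sub_of_hasDerivAt (fun t _ => st_der t)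
      (et_tst.1.continuous.intervalIntegrable _ _), st_1 le_rfl, st_0 le_rfl, sub_zero]

/-- the plateau -/
def th (t : ℝ) : ℝ := st t * st (-t)

lemma th_bump : Bump th :=
  ⟨cs_of (st_sm.mul (st_sm.comp contDiff_neg)) (isCompact_Icc (a := -2) (b := 2)) fun t h => by
    rcases not_and_or.1 h with h | h
    · rw [th, st_0 (not_le.1 h).le, zero_mul]
    · rw [th, st_0 (t := -t) (by linarith [not_le.1 h]), mul_zero],
  fun t => by rw [th, th, neg_neg, mul_comm], fun t h => by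
    rw [th, st_1 (abs_le.1 h).1, st_1 (neg_le_neg (abs_le.1 h).2), one_mul]⟩

lemma chm_th (t : ℝ) : chm th t = -t * et t := by
  rw [chm]
  split_ifs with h
  · have : th =ᶠ[𝓝 t] st := (gt_mem_nhds h).mono fun y k => by
      rw [th, st_1 (t := -y) (by linarith), mul_one]
    rw [this.deriv_eq, et]
  · rw [et_0 fun k => h (by linarith [k.2]), mul_zero]

lemma sd_chi : Sd (chm th) := chm_eq th ▸ sd_ch (.inr rfl) th_bump

/-- the plateau between the scales `a` and `b` -/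
def ps (a b t : ℝ) : ℝ := st (t / b) - st (t / a)

variable {a b s : ℝ}

lemma ps_0 (ha : 0 < a) (hb : 0 < b) {R r t : ℝ} (h1 : a ≤ R) (h2 : b ≤ R) (h3 : r ≤ a) (h4 : r ≤ b)
    (h : t ∉ Icc (-2 * R) (-r)) : ps a b t = 0 := by
  rcases not_and_or.1 h with h | h
  · rw [ps, st_0, st_0, sub_self] <;> rw [div_le_iff₀ (by assumption)] <;> linarith [not_le.1 h]
  · rw [ps, st_1, st_1, sub_self] <;> rw [le_div_iff₀ (by assumption)] <;> linarith [not_le.1 h]

lemma sd_ps (ha : 0 < a) (hb : 0 < b) : Sd (ps a b) :=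
  have k := fun t => ps_0 (t := t) ha hb (le_max_left _ _) (le_max_right _ _) (min_le_left _ _)
    (min_le_right _ _)
  ⟨cs_of ((st_sm.comp (contDiff_id.div_const b)).sub (st_sm.comp (contDiff_id.div_const a)))
    isCompact_Icc k, _, _, .inl (neg_neg_of_pos (lt_min ha hb)),
    tsupp_sub isClosed_Icc fun t h => by_contra fun j => h (k t j)⟩

lemma dil_ps (hs : 0 < s) (a b : ℝ) : dil s (ps (a / s) (b / s)) = ps a b := by
  funext t
  simp only [dil, ps, div_div_div_cancel_right₀ hs.ne']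

lemma tst_dlt {φ : ℝ → ℝ} (h : Tst φ) (hs : 0 < s) : Tst (dlt s φ) :=
  cs_mul_r (tst_dil h hs) contDiff_const

lemma der_ps (ha : 0 < a) (hb : 0 < b) :
    SchwartzMap.derivCLM ℂ ℂ (S1 (ps a b)) = S1 (dlt b et) - S1 (dlt a et) := by
  ext t
  have d : ∀ s : ℝ, HasDerivAt (fun t => st (t / s)) (dlt s et t) t := fun s =>
    ((st_der (t / s)).comp t ((hasDerivAt_id t).div_const s)).congr_deriv (mul_one_div _ _)
  rw [SchwartzMap.derivCLM_apply, SchwartzMap.sub_apply, S1_coe (sd_ps ha hb).1,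
    S1_coe (tst_dlt et_tst ha), S1_coe (tst_dlt et_tst hb), cx, cx, ← Complex.ofReal_sub]
  exact ((d b).sub (d a)).ofReal_comp.deriv

/-- **plateaus are superpositions of dilates** -/
lemma plat {B : Type*} [NormedAddCommGroup B] [NormedSpace ℂ B] [CompleteSpace B]
    (Λ : 𝓢(ℝ, ℂ) →L[ℂ] B) (ha : 0 < a) (hb : 0 < b) :
    Λ (S1 (ps a b)) = ∫ s in a..b, ((s⁻¹ : ℝ) : ℂ) • Λ (S1 (dil s (chm th))) := by
  have f : Fam (Ioi (0 : ℝ)) fun s => cx (ps a s) := by
    refine ⟨isOpen_Ioi, Complex.ofRealCLM.contDiff.comp_contDiffOn ((st_sm.comp_contDiffOn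
      (contDiffOn_snd.div contDiffOn_fst fun q hq => hq.1.ne')).sub
        (st_sm.comp (contDiff_snd.div_const a)).contDiffOn), fun s hs =>
      ⟨Icc (-2 * (a + (s + 1))) (-0), isCompact_Icc, ?_⟩⟩
    filter_upwards [Ioo_mem_nhds hs (lt_add_one s)] with r hr t ht
    rw [cx, ps_0 ha hr.1 (by linarith [hr.1, hr.2]) (by linarith [hr.2]) ha.le hr.1.le ht,
      Complex.ofReal_zero]
  have p : uIcc a b ⊆ Ioi 0 := fun s hs => (lt_min ha hb).trans_le hs.1
  have e := f.ftc Λ p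
  rw [show cx (ps a a) = fun _ => 0 from funext fun t => by simp [cx, ps], sch_zero, map_zero,
    sub_zero] at e
  refine e.trans (intervalIntegral.integral_congr fun s hs => ?_)
  have s0 : s ≠ 0 := (p hs).ne'
  rw [← map_smul, ← sch_cmul (f := cx _) _ (tst_sw (tst_dil sd_chi.1 (p hs)))]
  congr 2
  funext t
  refine ((((st_der (t / s)).comp s ((hasDerivAt_inv s0).const_mul t)).sub_const
    (st (t / a))).ofReal_comp.deriv).trans ?_
  rw [cx, dil, chm_th, ← Complex.ofReal_mul]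
  congr 1
  field_simp

/-! ### averages -/

/-- the scales -/
def xs (n j : ℕ) : ℝ := (2 * (n + 1)) ^ (j + 1)

lemma xs_ge (n j : ℕ) : 2 * (n + 1 : ℝ) ≤ xs n j :=
  le_self_pow₀ (by linarith [n.cast_nonneg (α := ℝ)]) j.succ_ne_zero

lemma xs_one (n j : ℕ) : 1 ≤ xs n j := le_trans (by linarith [n.cast_nonneg (α := ℝ)]) (xs_ge n j)

lemma xs_pos (n j : ℕ) : 0 < xs n j := one_pos.trans_le (xs_one n j)

lemma xs_lt (n : ℕ) {i j : ℕ} (h : i < j) : xs n i / xs n j ≤ 1 / (n + 1) := by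
  have := n.cast_nonneg (α := ℝ)
  rw [div_le_div_iff₀ (xs_pos n j) (by positivity), one_mul]
  refine le_trans ?_ (pow_le_pow_right₀ (by linarith) (show i + 1 + 1 ≤ j + 1 by omega))
  rw [pow_succ _ (i + 1)]
  exact mul_le_mul_of_nonneg_left (by linarith) (xs_pos n i).le

/-- the profiles -/
def Ph (n : ℕ) (t : ℝ) : ℝ :=
  (n + 1 : ℝ)⁻¹ * ∑ j ∈ Finset.range (n + 1), dlt (xs n j ^ 2)⁻¹ et t

lemma a_pos (n j : ℕ) : 0 < (xs n j ^ 2)⁻¹ := inv_pos.2 (pow_pos (xs_pos n j) 2)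

lemma Ph_tst (n : ℕ) : Tst (Ph n) := cs_cmul _ (cs_sum fun j _ => tst_dlt et_tst (a_pos n j))

lemma Ph_S1 (n : ℕ) : S1 (Ph n) =
    (((n + 1 : ℝ)⁻¹ : ℝ) : ℂ) • ∑ j ∈ Finset.range (n + 1), S1 (dlt (xs n j ^ 2)⁻¹ et) := by
  ext t
  simp only [SchwartzMap.smul_apply, SchwartzMap.sum_apply, S1_coe (Ph_tst n),
    S1_coe (tst_dlt et_tst (a_pos n _)), cx, Ph, smul_eq_mul, Complex.ofReal_mul, Complex.ofReal_sum]

lemma Ph_supp (n : ℕ) : tsupport (Ph n) ⊆ Ioo (-(1 / ((n : ℝ) + 1))) 0 := by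
  have := n.cast_nonneg (α := ℝ)
  refine (tsupp_sub (isClosed_Icc (a := -(1 / (2 * ((n : ℝ) + 1)))) (b := -(xs n n ^ 2)⁻¹))
    fun t h => ?_).trans (Icc_subset_Ioo (neg_lt_neg (one_div_lt_one_div_of_lt (by linarith)
      (by linarith))) (neg_neg_of_pos (a_pos n n)))
  obtain ⟨j, hj, k⟩ := Finset.exists_ne_zero_of_sum_ne_zero (right_ne_zero_of_mul h)
  have q : t / (xs n j ^ 2)⁻¹ ∈ Icc (-2 : ℝ) (-1) :=
    by_contra fun i => k (by rw [dlt, et_0 i, zero_div])
  have x1 := xs_ge n j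
  have x2 : xs n j ≤ xs n n := pow_le_pow_right₀ (by linarith) (Finset.mem_range.1 hj)
  have x3 : (xs n n ^ 2)⁻¹ ≤ (xs n j ^ 2)⁻¹ := by
    have := xs_pos n j
    gcongr
  have x4 : 2 * (xs n j ^ 2)⁻¹ ≤ 1 / (2 * ((n : ℝ) + 1)) := by
    rw [← div_eq_mul_inv, div_le_div_iff₀ (pow_pos (xs_pos n j) 2) (by positivity)]
    nlinarith
  rw [mem_Icc, le_div_iff₀ (a_pos n j), div_le_iff₀ (a_pos n j)] at q
  exact ⟨by linarith [q.1], by linarith [q.2]⟩

lemma int_dlt (φ : ℝ → ℝ) (hs : 0 < s) : ∫ t, dlt s φ t = ∫ t, φ t := by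
  simp only [dlt, integral_div, Measure.integral_comp_div, abs_of_pos hs, smul_eq_mul]
  field_simp

lemma Ph_int (n : ℕ) : ∫ t, Ph n t = 1 := by
  simp only [Ph, integral_const_mul]
  rw [integral_finsetSum _ fun j _ => cs_int (tst_dlt et_tst (a_pos n j))]
  simp only [int_dlt _ (a_pos n _), et_int, Finset.sum_const, Finset.card_range, nsmul_eq_mul]
  push_cast
  field_simp

lemma Ph_abs (n : ℕ) : ∫ t, |Ph n t| ≤ ∫ t, |et t| := by
  have p : (0 : ℝ) < n + 1 := by positivity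
  have i := fun j => (cs_int (μ := volume) (tst_dlt et_tst (a_pos n j))).abs
  refine (integral_mono_of_nonneg (.of_forall fun _ => abs_nonneg _) ((integrable_finsetSum
    (Finset.range (n + 1)) fun j _ => i j).const_mul (n + 1 : ℝ)⁻¹) (.of_forall fun t => ?_)).trans_eq ?_
  · beta_reduce
    rw [Ph, abs_mul, abs_of_pos (inv_pos.2 p)]
    exact mul_le_mul_of_nonneg_left (Finset.abs_sum_le_sum_abs _ _) (inv_pos.2 p).le
  · have e : ∀ j, ∫ t, |dlt (xs n j ^ 2)⁻¹ et t| = ∫ t, |et t| := fun j => by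
      rw [← int_dlt (fun t => |et t|) (a_pos n j)]
      simp only [dlt, abs_div, abs_of_pos (a_pos n j)]
    rw [integral_const_mul, integral_finsetSum _ fun j _ => i j]
    simp only [e, Finset.sum_const, Finset.card_range, nsmul_eq_mul]
    push_cast
    field_simp

lemma Ph_sq : Tendsto (fun n => ∫ t, (t * Ph n t) ^ 2) atTop (𝓝 0) := by
  obtain ⟨B, B0, hB⟩ := cs_bd0 (cs_mul_l contDiff_id et_tst)
  refine squeeze_zero (fun _ => integral_nonneg fun _ => sq_nonneg _) (fun n => ?_)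
    (by simpa using (tendsto_one_div_add_atTop_nhds_zero_nat (𝕜 := ℝ)).const_mul (B ^ 2))
  have p : (0 : ℝ) < n + 1 := by positivity
  rw [← setIntegral_eq_integral_of_forall_compl_eq_zero (s := Ioo (-(1 / ((n : ℝ) + 1))) 0)
    fun t h => by rw [image_eq_zero_of_notMem_tsupport fun k => h (Ph_supp n k)]; simp]
  refine ((Real.le_norm_self _).trans (norm_setIntegral_le_of_norm_le_const (C := B ^ 2) measure_Ioo_lt_top
    fun t _ => ?_)).trans_eq (by rw [Real.volume_real_Ioo_of_le (by simp [p.le])]; simp)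
  rw [Real.norm_eq_abs, abs_pow]
  refine pow_le_pow_left₀ (abs_nonneg _) ?_ 2
  rw [Ph, mul_left_comm, Finset.mul_sum, abs_mul, abs_of_pos (inv_pos.2 p), inv_mul_le_iff₀ p]
  refine (Finset.abs_sum_le_sum_abs _ _).trans ((Finset.sum_le_card_nsmul _ _ B
    fun j _ => ?_).trans_eq (by simp))
  rw [dlt, mul_div_left_comm, mul_comm]
  exact hB _

lemma sq_dlt (hs : 0 < s) : ∫ t, ‖S1 (dlt s et) t‖ ^ 2 = s⁻¹ * ∫ t, et t ^ 2 := by
  rw [← int_dlt (fun t => et t ^ 2) hs, ← integral_const_mul]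
  simp only [S1_coe (tst_dlt et_tst hs), cx, Complex.norm_real, Real.norm_eq_abs, sq_abs, dlt]
  congr 1
  funext t
  field_simp

end

end Vale.Agent.P352X.D1
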