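import Vale.Agent.P352X.R.D1.Av
import Vale.Agent.P352X.R.D1.Fo
import Vale.Agent.P352X.R.D1.Pr
import Vale.Agent.P352X.Api1C

/-!
# P352X, row D1: the thin vectors are almost invariant
-/

set_option linter.all false

open MeasureTheory Filter Topology Set
open scoped SchwartzMap ComplexConjugate ContDiff

namespace Vale.Agent.P352X.D1

open Vale.Agent.P352 Vale.Agent.P352.GF Vale.Agent.P352.H755
open Th Ap Ib
open UniformSpace (Completion)
open Complex (I)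

noncomputable section

variable {D : Type*} [NormedAddCommGroup D] [InnerProductSpace ℂ D] {c : Ctx D}
  {ell : (V → ℂ) → Completion D} {c0 : ℝ} {cc : (ℝ → ℝ) → (ℝ → ℝ) → ℂ} {dd : (ℝ → ℝ) → ℝ}
  {G γ : P3 → ℂ} {φ φ' : ℝ → ℝ} {a b s : ℝ}

variable (c ell γ) in
/-- the form of `Kt` -/
def bf (φ' φ : ℝ → ℝ) : ℂ := inner ℂ (Tht ell γ φ') (gen c.Sk (Tht ell γ φ))

variable (kt : KT c) (S : Schur c ell cc dd) (hγ : MemLp γ 2 m3)
include kt S hγ

lemma bf_eq (h' : D0 φ') (h : D0 φ) :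
    bf c ell γ φ' φ = inner ℂ (gen c.Sk (Tht ell γ φ')) (Tht ell γ φ) :=
  kt.ugk.symm (S.dom _ _ hγ h').gn (S.dom _ _ hγ h).gn

lemma bf_conj (h' : D0 φ') (h : D0 φ) : bf c ell γ φ' φ = conj (bf c ell γ φ φ') := by
  rw [bf_eq kt S hγ h' h, bf, inner_conj_symm]

omit kt in
lemma bf_dil (h' : Sd φ') (h : Sd φ) (hs : 0 < s) :
    bf c ell γ (dil s φ') (dil s φ) = bf c ell γ φ' φ := by
  rw [bf, bf, S.form _ _ _ _ hγ (h'.dil hs).d0 hγ (h.dil hs).d0, S.form _ _ _ _ hγ h'.d0 hγ h.d0,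
    S.scc _ _ _ h'.d0 h.d0 hs]

omit kt in
lemma gen_dil (h : Sd φ) (hs : 0 < s) :
    ‖gen c.Sk (Tht ell γ (dil s φ))‖ = ‖gen c.Sk (Tht ell γ φ)‖ * √s := by
  rw [← sq_eq_sq₀ (norm_nonneg _) (by positivity), mul_pow, Real.sq_sqrt hs.le,
    S.nrm _ _ hγ (h.dil hs).d0, S.nrm _ _ hγ h.d0, S.sdd _ _ h.d0 hs]
  ring

variable (h : Ell c ell c0) (hG : MemLp G 2 mP) (e : ∀ k, G k = -(I * k.1) * γ k)
include h hG e

lemma bf_ps (h' : D0 φ') (ha : 0 < a) (hb : 0 < b) : bf c ell γ φ' (ps a b) =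
    ∫ s in a..b, ((s⁻¹ : ℝ) : ℂ) • bf c ell γ φ' (dil s (chm th)) := by
  rw [bf_eq kt S hγ h' (sd_ps ha hb).d0, Tht_eq h hG e (sd_ps ha hb).1]
  refine (plat (innerSL ℂ (gen c.Sk (Tht ell γ φ')) ∘L ((6 : ℂ) • (La h hG ∘L
    SchwartzMap.derivCLM ℂ ℂ))) ha hb).trans (intervalIntegral.integral_congr fun s hs => ?_)
  have k := sd_chi.dil ((lt_min ha hb).trans_le hs.1)
  beta_reduce
  rw [bf_eq kt S hγ h' k.d0, Tht_eq h hG e k.1]
  rfl

lemma orth (hY : YY cc (chm th) (chm th) = 0) : ∃ K, 0 ≤ K ∧ ∀ x y : ℝ, 1 ≤ x → 0 < y →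
    ‖bf c ell γ (ps (y ^ 2)⁻¹ (y ^ 2)) (ps (x ^ 2)⁻¹ (x ^ 2))‖ ≤ K * (x / y) := by
  set K := ‖Tht ell γ (chm th)‖ * ‖gen c.Sk (Tht ell γ (chm th))‖
  have K0 : 0 ≤ K := by positivity
  have χ := sd_chi
  have b0 : ∀ s : ℝ, s ∈ Ioi (0 : ℝ) → bf c ell γ (chm th) (dil s (chm th)) / s =
      conj (cc (dil s (chm th)) (chm th) / s * ∫ k, conj (γ k) * γ k ∂m3) := fun s hs => by
    rw [bf_conj kt S hγ χ.d0 (χ.dil hs).d0, bf, S.form _ _ _ _ hγ (χ.dil hs).d0 hγ χ.d0,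
      div_mul_eq_mul_div, map_div₀, Complex.conj_ofReal]
  have b1 : ∀ s, 0 < s → ‖bf c ell γ (chm th) (dil s (chm th))‖ ≤ K * √s := fun s hs =>
    (norm_inner_le_norm _ _).trans_eq (by rw [gen_dil S hγ χ hs, mul_assoc])
  have b2 : ∀ s, 0 < s → ‖bf c ell γ (chm th) (dil s (chm th))‖ ≤ K * (√s)⁻¹ := fun s hs => by
    have := bf_dil S hγ χ (χ.dil hs) (inv_pos.2 hs)
    rw [dil_dil, inv_mul_cancel₀ hs.ne', dil_one] at this
    rw [← this, bf_conj kt S hγ (χ.dil (inv_pos.2 hs)).d0 χ.d0, RCLike.norm_conj, ← Real.sqrt_inv]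
    exact b1 _ (inv_pos.2 hs)
  have t := fun x y => tails (β := fun s => bf c ell γ (chm th) (dil s (chm th))) (x := x) (y := y)
    ((integrableOn_congr_fun b0 measurableSet_Ioi).2 (Complex.conjCLE.toContinuousLinearMap.integrable_comp
      ((S.int _ _ χ.d0 χ.d0).mul_const _)))
    (by rw [setIntegral_congr_fun measurableSet_Ioi b0, integral_conj, integral_mul_const, ← YY, hY,
      zero_mul, map_zero]) K0 b1 b2
  refine ⟨8 * K, by positivity, fun x y hx hy => ?_⟩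
  have x0 := one_pos.trans_le hx
  have p1 : 0 < y ^ 2 := by positivity
  have p2 := inv_pos.2 p1
  have p3 : 0 < x ^ 2 := by positivity
  rw [bf_ps kt S hγ h hG e (sd_ps p2 p1).d0 (inv_pos.2 p3) p3]
  refine (mid (A := 2 * K * y⁻¹) (B := 2 * K * y⁻¹) (inv_pos.2 p3) ((inv_le_one_of_one_le₀
    (one_le_pow₀ hx)).trans (one_le_pow₀ hx)) (by positivity) (by positivity)
    fun s hs => ?_).trans_eq ?_
  · have q1 := div_pos p1 hs
    have q2 := div_pos p2 hs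
    rw [bf_conj kt S hγ (sd_ps p2 p1).d0 (χ.dil hs).d0, RCLike.norm_conj, ← dil_ps hs,
      bf_dil S hγ χ (sd_ps q2 q1) hs, bf_ps kt S hγ h hG e χ.d0 q2 q1]
    simp only [smul_eq_mul, Complex.ofReal_inv, ← div_eq_inv_mul]
    refine (t _ _ q2 q1).trans_eq ?_
    rw [Real.sqrt_div p1.le, Real.sqrt_div p2.le, Real.sqrt_inv, Real.sqrt_sq hy.le]
    field_simp
  · rw [Real.sqrt_inv, Real.sqrt_sq x0.le]
    field_simp
    ring

theorem small (hY : YY cc (chm th) (chm th) = 0) {r : ℝ} (hr : 0 ≤ r) :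
    Tendsto (fun n => c.Sk r (La h hG (S1 (Ph n))) - La h hG (S1 (Ph n))) atTop (𝓝 0) := by
  obtain ⟨K, K0, hK⟩ := orth kt S hγ h hG e hY
  have lim := tendsto_one_div_add_atTop_nhds_zero_nat (𝕜 := ℝ)
  have sd := fun n j => sd_ps (a_pos n j) (pow_pos (xs_pos n j) 2)
  set z : ℕ → Completion D := fun n => ((n + 1 : ℝ)⁻¹ : ℂ) •
    ∑ j ∈ Finset.range (n + 1), Tht ell γ (ps (xs n j ^ 2)⁻¹ (xs n j ^ 2))
  set u : ℕ → Completion D := fun n => ((n + 1 : ℝ)⁻¹ : ℂ) •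
    ∑ j ∈ Finset.range (n + 1), La h hG (S1 (dlt (xs n j ^ 2) et))
  have h1 : Tendsto (fun n => c.Sk r (z n) - z n) atTop (𝓝 0) := by
    have := (lim.const_mul (4 * r * K)).sqrt
    rw [mul_zero, Real.sqrt_zero] at this
    refine squeeze_zero_norm (fun n => Real.le_sqrt_of_sq_le ((kt.lip _ _ r hr ((Gn.sum _
      fun j _ => (S.dom _ _ hγ (sd n j).d0).gn).smul _)).trans ?_)) this
    refine (mul_le_mul_of_nonneg_left ((Complex.re_le_norm _).trans (avg n (C := K)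
      (ε := K * (1 / (n + 1))) (by positivity) (fun i => ?_) fun i j hij => ?_))
        (by positivity)).trans_eq (by ring)
    · simpa only [div_self (xs_pos n i).ne', mul_one, bf] using hK _ _ (xs_one n i) (xs_pos n i)
    · rcases lt_or_gt_of_ne hij with k | k
      · rw [← bf, bf_conj kt S hγ (sd n i).d0 (sd n j).d0, RCLike.norm_conj]
        exact (hK _ _ (xs_one n i) (xs_pos n j)).trans (mul_le_mul_of_nonneg_left (xs_lt n k) K0)
      · exact (hK _ _ (xs_one n j) (xs_pos n i)).trans (mul_le_mul_of_nonneg_left (xs_lt n k) K0)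
  have h2 : Tendsto u atTop (𝓝 0) := by
    set C := c0 * (∫ k, ‖G k‖ ^ 2 ∂mP) * (2 * Real.pi) * ∫ t, et t ^ 2
    have C0 : 0 ≤ C := mul_nonneg (mul_nonneg (mul_nonneg h.nonneg (integral_nonneg fun _ =>
      sq_nonneg _)) Real.two_pi_pos.le) (integral_nonneg fun _ => sq_nonneg _)
    refine squeeze_zero_norm (fun n => ?_) (by simpa only [mul_zero] using lim.const_mul √C)
    have p : (0 : ℝ) < n + 1 := by positivity
    simp only [u, norm_smul, norm_inv, Complex.norm_real, Real.norm_of_nonneg p.le]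
    rw [inv_mul_le_iff₀ p]
    refine (norm_sum_le _ _).trans ((Finset.sum_le_card_nsmul _ _ (√C * (1 / (n + 1)))
      fun j _ => ?_).trans_eq (by simp))
    have x1 := xs_ge n j
    refine abs_le_of_sq_le_sq' ((La_le h hG _).trans ?_) (by positivity) |>.2
    rw [sq_dlt (pow_pos (xs_pos n j) 2), mul_left_comm, mul_pow, Real.sq_sqrt C0, mul_comm,
      one_div, inv_pow]
    gcongr
    linarith
  have h3 : ∀ n, La h hG (S1 (Ph n)) = u n - (6 : ℂ)⁻¹ • z n := fun n => by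
    simp only [z, u, Tht_eq h hG e (sd n _).1, der_ps (a_pos n _) (pow_pos (xs_pos n _) 2), Ph_S1,
      map_smul, map_sum, map_sub, ← Finset.smul_sum, Finset.sum_sub_distrib, Complex.ofReal_inv]
    module
  have := (((c.Sk r).continuous.tendsto 0).comp h2).sub h2 |>.sub (h1.const_smul (6 : ℂ)⁻¹)
  rw [map_zero, smul_zero, sub_zero, sub_zero] at this
  refine this.congr fun n => ?_
  simp only [h3, Function.comp, map_sub, map_smul]
  module

end

end Vale.Agent.P352X.D1
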